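import Vale.Agent.Lib.P248.Plane.Main6

namespace Vale.Agent.Results.P248.AxisReflectionsPlanarBase

open Vale.Agent.Lib.P248

/-- **Volume product of convex bodies symmetric with respect to all coordinate hyperplanes but
one, in dimension at least two.** Let `K ⊆ ℝ^(n+2)` be compact and convex, invariant under the
sign change of each single coordinate `i ≠ 0` (no condition on the coordinate `0`), and let `z`
be any interior point of `K`. Then, with `N = n + 2` the dimension and
`(K - z)° = {y : ⟨y, x - z⟩ ≤ 1 for all x ∈ K}`,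

  `|K| |(K - z)°| ≥ (3/2) 4^N / (N N!)`,

and for `N ≥ 7` this is strictly larger than the volume product `(N+1)^(N+1) / (N!)^2` of the
simplex. -/
theorem result {n : ℕ} (K : Set (Fin (n+2) → ℝ)) (hK : IsCompact K) (hc : Convex ℝ K)
    (hflip : ∀ i : Fin (n+2), i ≠ 0 → ∀ x ∈ K, Function.update x i (-(x i)) ∈ K)
    (z : Fin (n+2) → ℝ) (hz : z ∈ interior K) :
    3 / 2 * (4:ℝ) ^ (n+2) / (((n:ℝ) + 2) * (n+2).factorial) ≤
        (MeasureTheory.volume K).toReal *
          (MeasureTheory.volume
            {y : Fin (n+2) → ℝ | ∀ x ∈ K, ∑ i, y i * (x i - z i) ≤ 1}).toReal ∧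
      (5 ≤ n → ((n:ℝ) + 3) ^ (n+3) / ((n+2).factorial : ℝ) ^ 2 <
        (MeasureTheory.volume K).toReal *
          (MeasureTheory.volume
            {y : Fin (n+2) → ℝ | ∀ x ∈ K, ∑ i, y i * (x i - z i) ≤ 1}).toReal) :=
  axisReflections_bound6 K hK hc hflip z hz

end Vale.Agent.Results.P248.AxisReflectionsPlanarBase
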