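import Vale.Agent.Lib.P248.Gen2.AllCodimExplicit
import Vale.Agent.Lib.P248.Dim.Uncond

namespace Vale.Agent.Results.P248.SymCoordsAndDimReduction

open MeasureTheory

/-- **Volume product: bodies with coordinate hyperplane symmetries, and reduction of the
dimension.** One statement with two independent parts.

Part A (first conjunct). Let `K ⊆ ℝ^m` be compact and convex, let `S` be a set of coordinates
such that `K` is invariant under the sign change of each single coordinate in `S` (no condition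
on the other coordinates), `s = |S|`, and let `z` be any interior point of `K`. Then, with
`(K - z)° = {y : ⟨y, x - z⟩ ≤ 1 for all x ∈ K}`,

  `|K| |(K - z)°| ≥ 4^m s! / (m!)^2`,  and
  `|K| |(K - z)°| ≥ (3/2) 4^m s! / (m!)^2` if `1 ≤ s ≤ m - 1`.

Consequently `|K| |(K - z)°|` is strictly larger than the volume product `(m+1)^(m+1) / (m!)^2`
of the simplex whenever `(m+1)^(m+1) < 4^m s!`, or `1 ≤ s ≤ m - 1` and
`(m+1)^(m+1) < (3/2) 4^m s!`; in particular when `s ≥ m - 1` and `m ≥ 7`, when `s ≥ m - 2`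
and `m ≥ 18`, and, for every number `k`, when `s ≥ m - k` and `m ≥ 16 (k + 2)^2` (at most `k`
coordinates without symmetry; last inner conjunct).

Part B (the other four conjuncts). For every origin-symmetric convex body `K ⊆ ℝⁿ` there is an
origin-symmetric convex body `Q ⊆ ℝⁿ⁺¹` with `|Q| |Q°| ≤ (4/(n+1)) |K| |K°|`; for every convex
body `K ⊆ ℝⁿ` and every interior point `z` of `K` there are a convex body `P ⊆ ℝⁿ⁺¹` and an
interior point `w` of `P` with `|P| |(P - w)°| ≤ ((n+2)ⁿ⁺² / (n+1)ⁿ⁺³) |K| |(K - z)°|`; hence,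
for all `m ≤ n`, the inequality of the symmetric Mahler conjecture in dimension `n`
(`MahlerSym n`) implies the one in dimension `m`, and the same for the general Mahler
conjecture (`MahlerGen`). -/
theorem result :
    (∀ (m : ℕ) (K : Set (Fin m → ℝ)), IsCompact K → Convex ℝ K →
      ∀ S : Finset (Fin m), (∀ i ∈ S, ∀ x ∈ K, Function.update x i (-(x i)) ∈ K) →
      ∀ z ∈ interior K,
      (4:ℝ) ^ m * (S.card).factorial / (m.factorial : ℝ) ^ 2 ≤
          (volume K).toReal *
            (volume {y : Fin m → ℝ | ∀ x ∈ K, ∑ i, y i * (x i - z i) ≤ 1}).toReal ∧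
        (1 ≤ S.card → S.card < m →
          3 / 2 * (4:ℝ) ^ m * (S.card).factorial / (m.factorial : ℝ) ^ 2 ≤
            (volume K).toReal *
              (volume {y : Fin m → ℝ | ∀ x ∈ K, ∑ i, y i * (x i - z i) ≤ 1}).toReal) ∧
        (((m:ℝ) + 1) ^ (m+1) < (4:ℝ) ^ m * (S.card).factorial →
          ((m:ℝ) + 1) ^ (m+1) / (m.factorial : ℝ) ^ 2 <
            (volume K).toReal *
              (volume {y : Fin m → ℝ | ∀ x ∈ K, ∑ i, y i * (x i - z i) ≤ 1}).toReal) ∧
        (1 ≤ S.card → S.card < m →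
          ((m:ℝ) + 1) ^ (m+1) < 3 / 2 * (4:ℝ) ^ m * (S.card).factorial →
          ((m:ℝ) + 1) ^ (m+1) / (m.factorial : ℝ) ^ 2 <
            (volume K).toReal *
              (volume {y : Fin m → ℝ | ∀ x ∈ K, ∑ i, y i * (x i - z i) ≤ 1}).toReal) ∧
        (7 ≤ m → m ≤ S.card + 1 →
          ((m:ℝ) + 1) ^ (m+1) / (m.factorial : ℝ) ^ 2 <
            (volume K).toReal *
              (volume {y : Fin m → ℝ | ∀ x ∈ K, ∑ i, y i * (x i - z i) ≤ 1}).toReal) ∧
        (18 ≤ m → m ≤ S.card + 2 →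
          ((m:ℝ) + 1) ^ (m+1) / (m.factorial : ℝ) ^ 2 <
            (volume K).toReal *
              (volume {y : Fin m → ℝ | ∀ x ∈ K, ∑ i, y i * (x i - z i) ≤ 1}).toReal) ∧
        (∀ k : ℕ, 16 * (k + 2) ^ 2 ≤ m → m ≤ S.card + k →
          ((m:ℝ) + 1) ^ (m+1) / (m.factorial : ℝ) ^ 2 <
            (volume K).toReal *
              (volume {y : Fin m → ℝ | ∀ x ∈ K, ∑ i, y i * (x i - z i) ≤ 1}).toReal)) ∧
    (∀ (n : ℕ) (K : Set (Fin n → ℝ)), Vale.Agent.Lib.P248.Dim.IsConvexBody K →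
      (∀ x ∈ K, -x ∈ K) →
      ∃ Q : Set (Fin (n + 1) → ℝ), Vale.Agent.Lib.P248.Dim.IsConvexBody Q ∧ (∀ x ∈ Q, -x ∈ Q) ∧
        volume Q * volume (Vale.Agent.Lib.P248.Dim.polar Q) ≤
          ENNReal.ofReal (4 / ((n : ℝ) + 1)) *
            (volume K * volume (Vale.Agent.Lib.P248.Dim.polar K))) ∧
    (∀ (n : ℕ) (K : Set (Fin n → ℝ)), Vale.Agent.Lib.P248.Dim.IsConvexBody K →
      ∀ z ∈ interior K,
      ∃ (P : Set (Fin (n + 1) → ℝ)) (w : Fin (n + 1) → ℝ),
        Vale.Agent.Lib.P248.Dim.IsConvexBody P ∧ w ∈ interior P ∧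
        volume P * volume (Vale.Agent.Lib.P248.Dim.polar ((fun x => x - w) '' P)) ≤
          ENNReal.ofReal (((n : ℝ) + 2) ^ (n + 2) / ((n : ℝ) + 1) ^ (n + 3)) *
            (volume K * volume (Vale.Agent.Lib.P248.Dim.polar ((fun x => x - z) '' K)))) ∧
    (∀ m n : ℕ, m ≤ n →
      Vale.Agent.Lib.P248.Dim.MahlerSym n → Vale.Agent.Lib.P248.Dim.MahlerSym m) ∧
    (∀ m n : ℕ, m ≤ n →
      Vale.Agent.Lib.P248.Dim.MahlerGen n → Vale.Agent.Lib.P248.Dim.MahlerGen m) := by
  refine ⟨fun m K hK hc S hflip z hz => ?_,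
    fun n K hK hs => Vale.Agent.Lib.P248.Dim.prism_step n K hK hs,
    fun n K hK z hz => Vale.Agent.Lib.P248.Dim.pyramid_step n K hK z hz, ?_, ?_⟩
  · obtain ⟨h1, h2, h3, h4, h5, h6⟩ :=
      Vale.Agent.Lib.P248.Gen.symCoords_final2 K hK hc S hflip z hz
    exact ⟨h1, h2, h3, h4, h5, h6, fun k hm hS =>
      Vale.Agent.Lib.P248.Gen.symCoords_codim_explicit k m hm K hK hc S hflip hS z hz⟩
  · intro m n hmn
    induction n, hmn using Nat.le_induction with
    | base => exact id
    | succ k _ ih => exact fun h => ih (Vale.Agent.Lib.P248.Dim.mahlerSym_of_succ k h)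
  · intro m n hmn
    induction n, hmn using Nat.le_induction with
    | base => exact id
    | succ k _ ih => exact fun h => ih (Vale.Agent.Lib.P248.Dim.mahlerGen_of_succ k h)

end Vale.Agent.Results.P248.SymCoordsAndDimReduction
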