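import Vale.Agent.Lib.P248.Gen2.AllCodimExplicit

namespace Vale.Agent.Results.P248.SymmetricCoordinatesAllCodim

open Vale.Agent.Lib.P248 Vale.Agent.Lib.P248.Gen

/-- **Volume product of convex bodies with coordinate hyperplane symmetries, every number of
non-symmetric coordinates.** Let `K ⊆ ℝ^m` be compact and convex, let `S` be a set of coordinates such that `K`
is invariant under the sign change of each single coordinate in `S` (no condition on the other
coordinates), `s = |S|`, and let `z` be any interior point of `K`. Then, with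
`(K - z)° = {y : ⟨y, x - z⟩ ≤ 1 for all x ∈ K}`,

  `|K| |(K - z)°| ≥ 4^m s! / (m!)^2`,  and
  `|K| |(K - z)°| ≥ (3/2) 4^m s! / (m!)^2` if `1 ≤ s ≤ m - 1`.

Consequently `|K| |(K - z)°|` is strictly larger than the volume product `(m+1)^(m+1) / (m!)^2`
of the simplex whenever `(m+1)^(m+1) < 4^m s!`, or `1 ≤ s ≤ m - 1` and
`(m+1)^(m+1) < (3/2) 4^m s!`; in particular when `s ≥ m - 1` and `m ≥ 7`, when `s ≥ m - 2`
and `m ≥ 18`, and, for every number `k`, when `s ≥ m - k` and `m ≥ 16 (k + 2)^2` (at most `k`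
coordinates without symmetry). -/
theorem result {m : ℕ} (K : Set (Fin m → ℝ)) (hK : IsCompact K) (hc : Convex ℝ K)
    (S : Finset (Fin m))
    (hflip : ∀ i ∈ S, ∀ x ∈ K, Function.update x i (-(x i)) ∈ K)
    (z : Fin m → ℝ) (hz : z ∈ interior K) :
    (4:ℝ) ^ m * (S.card).factorial / (m.factorial : ℝ) ^ 2 ≤
        (MeasureTheory.volume K).toReal *
          (MeasureTheory.volume
            {y : Fin m → ℝ | ∀ x ∈ K, ∑ i, y i * (x i - z i) ≤ 1}).toReal ∧
      (1 ≤ S.card → S.card < m →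
        3 / 2 * (4:ℝ) ^ m * (S.card).factorial / (m.factorial : ℝ) ^ 2 ≤
          (MeasureTheory.volume K).toReal *
            (MeasureTheory.volume
              {y : Fin m → ℝ | ∀ x ∈ K, ∑ i, y i * (x i - z i) ≤ 1}).toReal) ∧
      (((m:ℝ) + 1) ^ (m+1) < (4:ℝ) ^ m * (S.card).factorial →
        ((m:ℝ) + 1) ^ (m+1) / (m.factorial : ℝ) ^ 2 <
          (MeasureTheory.volume K).toReal *
            (MeasureTheory.volume
              {y : Fin m → ℝ | ∀ x ∈ K, ∑ i, y i * (x i - z i) ≤ 1}).toReal) ∧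
      (1 ≤ S.card → S.card < m →
        ((m:ℝ) + 1) ^ (m+1) < 3 / 2 * (4:ℝ) ^ m * (S.card).factorial →
        ((m:ℝ) + 1) ^ (m+1) / (m.factorial : ℝ) ^ 2 <
          (MeasureTheory.volume K).toReal *
            (MeasureTheory.volume
              {y : Fin m → ℝ | ∀ x ∈ K, ∑ i, y i * (x i - z i) ≤ 1}).toReal) ∧
      (7 ≤ m → m ≤ S.card + 1 →
        ((m:ℝ) + 1) ^ (m+1) / (m.factorial : ℝ) ^ 2 <
          (MeasureTheory.volume K).toReal *
            (MeasureTheory.volume
              {y : Fin m → ℝ | ∀ x ∈ K, ∑ i, y i * (x i - z i) ≤ 1}).toReal) ∧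
      (18 ≤ m → m ≤ S.card + 2 →
        ((m:ℝ) + 1) ^ (m+1) / (m.factorial : ℝ) ^ 2 <
          (MeasureTheory.volume K).toReal *
            (MeasureTheory.volume
              {y : Fin m → ℝ | ∀ x ∈ K, ∑ i, y i * (x i - z i) ≤ 1}).toReal) ∧
      (∀ k : ℕ, 16 * (k + 2) ^ 2 ≤ m → m ≤ S.card + k →
        ((m:ℝ) + 1) ^ (m+1) / (m.factorial : ℝ) ^ 2 <
          (MeasureTheory.volume K).toReal *
            (MeasureTheory.volume
              {y : Fin m → ℝ | ∀ x ∈ K, ∑ i, y i * (x i - z i) ≤ 1}).toReal) := by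
  obtain ⟨h1, h2, h3, h4, h5, h6⟩ := symCoords_final2 K hK hc S hflip z hz
  exact ⟨h1, h2, h3, h4, h5, h6, fun k hm hS =>
    symCoords_codim_explicit k m hm K hK hc S hflip hS z hz⟩

end Vale.Agent.Results.P248.SymmetricCoordinatesAllCodim
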